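import Vale.Agent.P047.Iterate
import Vale.Agent.P047.Stage

/-! The Gopalan-Servedio square-root conjecture is false, also up to any constant factor, and
even up to a power: the linear Fourier weight can exceed `deg ^ (1/2 + c)`. -/

namespace Vale.Agent.Results.P047.SqrtConjectureFalse

open Vale.Agent.P047

theorem result :
    (∃ c : ℝ, 0 < c ∧ ∀ C : ℝ, ∃ (n : ℕ) (f : (Fin n → Bool) → ℝ),
      (∀ x, f x = 1 ∨ f x = -1) ∧ C * (fdeg f : ℝ) ^ (1 / 2 + c) < ∑ i, fourier f {i}) ∧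
    (∀ C : ℝ, ∃ (n : ℕ) (f : (Fin n → Bool) → ℝ),
      (∀ x, f x = 1 ∨ f x = -1) ∧ C * Real.sqrt (fdeg f) < ∑ i, fourier f {i}) := by
  obtain ⟨n, s, M, κ, hp, hg⟩ := stage 20 le_rfl (by norm_num)
  obtain ⟨c, hc, hmain⟩ := iterate hp hg
  refine ⟨⟨c, hc, hmain⟩, fun C => ?_⟩
  obtain ⟨N, f, hf, hlt⟩ := hmain (max C 0)
  refine ⟨N, f, hf, lt_of_le_of_lt ?_ hlt⟩
  refine le_trans (mul_le_mul_of_nonneg_right (le_max_left C 0) (Real.sqrt_nonneg _))
    (mul_le_mul_of_nonneg_left ?_ (le_max_right C 0))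
  rcases Nat.eq_zero_or_pos (fdeg f) with h | h
  · rw [h, Nat.cast_zero, Real.sqrt_zero, Real.zero_rpow (by positivity)]
  · rw [Real.sqrt_eq_rpow]
    exact Real.rpow_le_rpow_of_exponent_le (by exact_mod_cast h) (by linarith)

end Vale.Agent.Results.P047.SqrtConjectureFalse
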